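import Mathlib

namespace Vale.Agent.Results.P262.SqrtDPlusOne

open Finset

/-- Planar doubling lemma: from a planar point whose squared norm exceeds `T - 2`, a fixed
sequence of planar unit vectors forces some shifted prefix sum to have squared norm `≥ T`. -/
theorem planar (T : ℝ) (hT1 : 9 / 4 ≤ T) (n : ℕ) :
    ∀ x y : ℝ, T - 2 < x ^ 2 + y ^ 2 → 2 ≤ 2 ^ n * (x ^ 2 + y ^ 2 - (T - 2)) →
    ∃ (N : ℕ) (p q : ℕ → ℝ), (∀ i, p i ^ 2 + q i ^ 2 ≤ 1) ∧
      ∀ ε : ℕ → ℝ, (∀ i, ε i = 1 ∨ ε i = -1) →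
        ∃ k ≤ N, T ≤ (x + ∑ i ∈ range k, ε i * p i) ^ 2
          + (y + ∑ i ∈ range k, ε i * q i) ^ 2 := by
  induction n with
  | zero =>
    intro x y _ h
    refine ⟨0, fun _ => 0, fun _ => 0, by intro i; norm_num, fun ε _ => ⟨0, le_refl _, ?_⟩⟩
    simp at h ⊢
    linarith
  | succ n ih =>
    intro x y hpos h
    by_cases ha : T ≤ x ^ 2 + y ^ 2
    · refine ⟨0, fun _ => 0, fun _ => 0, by intro i; norm_num, fun ε _ => ⟨0, le_refl _, ?_⟩⟩
      simpa using ha
    · rw [not_le] at ha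
      obtain ⟨a, ha_def⟩ : ∃ a, a = x ^ 2 + y ^ 2 := ⟨_, rfl⟩
      rw [← ha_def] at ha hpos h
      obtain ⟨s, hs⟩ : ∃ s, s = (T - a - 1) / 2 := ⟨_, rfl⟩
      have ha_pos : 0 < a := by linarith
      have hs2 : s ^ 2 ≤ a := by
        have h1 : -(1 / 2) ≤ s := by rw [hs]; linarith
        have h2 : s ≤ 1 / 2 := by rw [hs]; linarith
        nlinarith
      obtain ⟨t, ht⟩ : ∃ t : ℝ, t ^ 2 = a - s ^ 2 :=
        ⟨Real.sqrt (a - s ^ 2), Real.sq_sqrt (by linarith)⟩
      obtain ⟨p0, hp0⟩ : ∃ p0, p0 = (s * x - t * y) / a := ⟨_, rfl⟩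
      obtain ⟨q0, hq0⟩ : ∃ q0, q0 = (s * y + t * x) / a := ⟨_, rfl⟩
      have h1 : p0 ^ 2 + q0 ^ 2 = 1 := by
        rw [hp0, hq0, div_pow, div_pow, ← add_div, div_eq_one_iff_eq (by positivity)]
        linear_combination (x ^ 2 + y ^ 2) * ht - a * ha_def
      have h2 : x * p0 + y * q0 = s := by
        rw [hp0, hq0, mul_div_assoc', mul_div_assoc', ← add_div, div_eq_iff ha_pos.ne']
        linear_combination (-s) * ha_def
      have h3 : (x - p0) ^ 2 + (y - q0) ^ 2 = 2 * a + 2 - T := by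
        have : (x - p0) ^ 2 + (y - q0) ^ 2
            = (x ^ 2 + y ^ 2) + (p0 ^ 2 + q0 ^ 2) - 2 * (x * p0 + y * q0) := by ring
        rw [this, h1, h2, ← ha_def, hs]
        ring
      have h4 : (x + p0) ^ 2 + (y + q0) ^ 2 = T := by
        have : (x + p0) ^ 2 + (y + q0) ^ 2
            = (x ^ 2 + y ^ 2) + (p0 ^ 2 + q0 ^ 2) + 2 * (x * p0 + y * q0) := by ring
        rw [this, h1, h2, ← ha_def, hs]
        ring
      obtain ⟨N, p, q, hpq, hf⟩ := ih (x - p0) (y - q0) (by rw [h3]; linarith) (by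
        rw [h3]
        have : (2 : ℝ) ^ (n + 1) * (a - (T - 2)) = 2 ^ n * (2 * a + 2 - T - (T - 2)) := by
          rw [pow_succ]; ring
        linarith)
      refine ⟨N + 1, fun i => Nat.casesOn i p0 p, fun i => Nat.casesOn i q0 q, ?_, ?_⟩
      · intro i
        cases i with
        | zero => exact h1.le
        | succ i => exact hpq i
      · intro ε hε
        rcases hε 0 with h0 | h0
        · refine ⟨1, by omega, ?_⟩
          simp [h0, h4]
        · obtain ⟨k, hk, hk2⟩ := hf (fun i => ε (i + 1)) (fun i => hε (i + 1))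
          refine ⟨k + 1, by omega, ?_⟩
          rw [sum_range_succ', sum_range_succ']
          show T ≤ (x + (∑ i ∈ range k, ε (i + 1) * p i + ε 0 * p0)) ^ 2
            + (y + (∑ i ∈ range k, ε (i + 1) * q i + ε 0 * q0)) ^ 2
          have e1 : x + (∑ i ∈ range k, ε (i + 1) * p i + ε 0 * p0)
              = x - p0 + ∑ i ∈ range k, ε (i + 1) * p i := by rw [h0]; ring
          have e2 : y + (∑ i ∈ range k, ε (i + 1) * q i + ε 0 * q0)
              = y - q0 + ∑ i ∈ range k, ε (i + 1) * q i := by rw [h0]; ring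
          rw [e1, e2]
          exact hk2

/-- Planar forcing from the origin: for every `T < 3` there is a finite sequence of planar vectors
of norm at most one such that every signing has a prefix sum of squared norm at least `T`. -/
theorem planar0 (T : ℝ) (hT : T < 3) :
    ∃ (N : ℕ) (p q : ℕ → ℝ), (∀ i, p i ^ 2 + q i ^ 2 ≤ 1) ∧
      ∀ ε : ℕ → ℝ, (∀ i, ε i = 1 ∨ ε i = -1) →
        ∃ k ≤ N, T ≤ (∑ i ∈ range k, ε i * p i) ^ 2 + (∑ i ∈ range k, ε i * q i) ^ 2 := by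
  obtain ⟨T', hT', hT'1, hT'3⟩ : ∃ T', T ≤ T' ∧ 9 / 4 ≤ T' ∧ T' < 3 :=
    ⟨max T (9 / 4), le_max_left _ _, le_max_right _ _, max_lt hT (by norm_num)⟩
  obtain ⟨n, hn⟩ : ∃ n : ℕ, 2 / (3 - T') < 2 ^ n := pow_unbounded_of_one_lt _ (by norm_num)
  have hpos : 0 < 3 - T' := by linarith
  obtain ⟨N, p, q, hpq, hf⟩ := planar T' hT'1 n 1 0 (by norm_num; linarith) (by
    rw [div_lt_iff₀ hpos] at hn
    have : (1 : ℝ) ^ 2 + 0 ^ 2 - (T' - 2) = 3 - T' := by ring
    rw [this]; exact hn.le)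
  refine ⟨N + 1, fun i => Nat.casesOn i 1 p, fun i => Nat.casesOn i 0 q, ?_, ?_⟩
  · intro i
    cases i with
    | zero => norm_num
    | succ i => exact hpq i
  · intro ε hε
    rcases hε 0 with h0 | h0
    · obtain ⟨k, hk, hk2⟩ := hf (fun i => ε (i + 1)) (fun i => hε (i + 1))
      refine ⟨k + 1, by omega, hT'.trans ?_⟩
      rw [sum_range_succ', sum_range_succ']
      show T' ≤ (∑ i ∈ range k, ε (i + 1) * p i + ε 0 * 1) ^ 2
            + (∑ i ∈ range k, ε (i + 1) * q i + ε 0 * 0) ^ 2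
      have e1 : ∑ i ∈ range k, ε (i + 1) * p i + ε 0 * 1
          = 1 + ∑ i ∈ range k, ε (i + 1) * p i := by rw [h0]; ring
      have e2 : ∑ i ∈ range k, ε (i + 1) * q i + ε 0 * 0
          = 0 + ∑ i ∈ range k, ε (i + 1) * q i := by ring
      rw [e1, e2]
      exact hk2
    · obtain ⟨k, hk, hk2⟩ := hf (fun i => -ε (i + 1)) (fun i => by
        rcases hε (i + 1) with h | h <;> simp [h])
      refine ⟨k + 1, by omega, hT'.trans ?_⟩
      rw [sum_range_succ', sum_range_succ']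
      show T' ≤ (∑ i ∈ range k, ε (i + 1) * p i + ε 0 * 1) ^ 2
            + (∑ i ∈ range k, ε (i + 1) * q i + ε 0 * 0) ^ 2
      have e1 : ∑ i ∈ range k, ε (i + 1) * p i + ε 0 * 1
          = -(1 + ∑ i ∈ range k, -ε (i + 1) * p i) := by
        rw [h0]; simp only [neg_mul, sum_neg_distrib]; ring
      have e2 : ∑ i ∈ range k, ε (i + 1) * q i + ε 0 * 0
          = -(0 + ∑ i ∈ range k, -ε (i + 1) * q i) := by
        simp only [neg_mul, sum_neg_distrib]; ring
      rw [e1, e2, neg_sq, neg_sq]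
      exact hk2

/-- Adding spectator coordinates: forcing squared norm `T + j` inside the first `j + 2`
coordinates of `ℝ^d`. -/
theorem force (d : ℕ) (T : ℝ) (hT : T < 3) (j : ℕ) (hj : j + 2 ≤ d) :
    ∃ (N : ℕ) (v : ℕ → EuclideanSpace ℝ (Fin d)), (∀ i, ‖v i‖ ≤ 1) ∧
      (∀ i, ∀ c : Fin d, j + 2 ≤ c.val → v i c = 0) ∧
      ∀ ε : ℕ → ℝ, (∀ i, ε i = 1 ∨ ε i = -1) →
        ∃ k ≤ N, T + j ≤ ‖∑ i ∈ range k, ε i • v i‖ ^ 2 := by
  induction j with
  | zero =>
    obtain ⟨N, p, q, hpq, hf⟩ := planar0 T hT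
    obtain ⟨e0, he0⟩ : ∃ e0 : EuclideanSpace ℝ (Fin d),
      e0 = EuclideanSpace.single ⟨0, by omega⟩ 1 := ⟨_, rfl⟩
    obtain ⟨e1, he1⟩ : ∃ e1 : EuclideanSpace ℝ (Fin d),
      e1 = EuclideanSpace.single ⟨1, by omega⟩ 1 := ⟨_, rfl⟩
    have hnorm : ∀ x y : ℝ, ‖x • e0 + y • e1‖ ^ 2 = x ^ 2 + y ^ 2 := by
      intro x y
      rw [norm_add_sq_real, norm_smul, norm_smul, inner_smul_left, inner_smul_right, he0, he1,
        EuclideanSpace.inner_single_left]
      simp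
    refine ⟨N, fun i => p i • e0 + q i • e1, ?_, ?_, ?_⟩
    · intro i
      have := hnorm (p i) (q i)
      have h2 := hpq i
      have h3 : ‖p i • e0 + q i • e1‖ ^ 2 ≤ 1 ^ 2 := by rw [this]; linarith
      exact (abs_le_of_sq_le_sq' h3 (by norm_num)).2
    · intro i c hc
      have h0 : c ≠ ⟨0, by omega⟩ := by
        intro h; rw [h] at hc; simp at hc
      have h1 : c ≠ ⟨1, by omega⟩ := by
        intro h; rw [h] at hc; simp at hc
      simp [he0, he1, h0, h1]
    · intro ε hε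
      obtain ⟨k, hk, hk2⟩ := hf ε hε
      refine ⟨k, hk, ?_⟩
      have : ∑ i ∈ range k, ε i • (p i • e0 + q i • e1)
          = (∑ i ∈ range k, ε i * p i) • e0 + (∑ i ∈ range k, ε i * q i) • e1 := by
        simp only [smul_add, smul_smul, sum_add_distrib, sum_smul]
      rw [this, hnorm]
      simpa using hk2
  | succ j ih =>
    obtain ⟨N, v, hv, hz, hf⟩ := ih (by omega)
    obtain ⟨u, hu⟩ : ∃ u : EuclideanSpace ℝ (Fin d),
      u = EuclideanSpace.single ⟨j + 2, by omega⟩ 1 := ⟨_, rfl⟩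
    refine ⟨N + 1, fun i => Nat.casesOn i u v, ?_, ?_, ?_⟩
    · intro i
      cases i with
      | zero => simp [hu]
      | succ i => exact hv i
    · intro i c hc
      cases i with
      | zero =>
        have h0 : c ≠ ⟨j + 2, by omega⟩ := by
          intro h; rw [h] at hc; simp at hc
        simp [hu, h0]
      | succ i => exact hz i c (by omega)
    · intro ε hε
      obtain ⟨k, hk, hk2⟩ := hf (fun i => ε (i + 1)) (fun i => hε (i + 1))
      refine ⟨k + 1, by omega, ?_⟩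
      rw [sum_range_succ']
      show T + ((j + 1 : ℕ) : ℝ) ≤ ‖∑ i ∈ range k, ε (i + 1) • v i + ε 0 • u‖ ^ 2
      have hin : inner ℝ (∑ i ∈ range k, ε (i + 1) • v i) (ε 0 • u) = 0 := by
        rw [inner_smul_right, hu, EuclideanSpace.inner_single_right]
        have : (∑ i ∈ range k, ε (i + 1) • v i) ⟨j + 2, by omega⟩ = 0 := by
          simp only [WithLp.ofLp_sum, Finset.sum_apply, WithLp.ofLp_smul, Pi.smul_apply]
          apply Finset.sum_eq_zero
          intro i _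
          rw [hz i ⟨j + 2, by omega⟩ (le_refl _)]
          simp
        rw [this]
        simp
      have hun : ‖ε 0 • u‖ ^ 2 = 1 := by
        rw [norm_smul, hu]
        rcases hε 0 with h | h <;> simp [h]
      rw [norm_add_sq_real, hin, hun]
      push_cast
      linarith

/-- **Result.** `σ(d) ≥ √(d+1)` for every `d ≥ 2`: for every `R < √(d+1)` there is a finite
sequence of vectors of the Euclidean unit ball of `ℝ^d` such that every signing has a prefix sum
of norm greater than `R`. -/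
theorem result (d : ℕ) (hd : 2 ≤ d) (R : ℝ) (hR : R < Real.sqrt (d + 1)) :
    ∃ (N : ℕ) (v : ℕ → EuclideanSpace ℝ (Fin d)), (∀ i, ‖v i‖ ≤ 1) ∧
      ∀ ε : ℕ → ℝ, (∀ i, ε i = 1 ∨ ε i = -1) →
        ∃ k ≤ N, R < ‖∑ i ∈ range k, ε i • v i‖ := by
  obtain ⟨j, rfl⟩ : ∃ j, d = j + 2 := ⟨d - 2, by omega⟩
  -- choose R' with max R 0 < R' < sqrt (d+1)
  have hpos : (0 : ℝ) < Real.sqrt ((j + 2 : ℕ) + 1) := Real.sqrt_pos.mpr (by positivity)
  obtain ⟨R', hR'1, hR'2⟩ := exists_between (max_lt hR hpos)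
  have hR'0 : 0 < R' := lt_of_le_of_lt (le_max_right _ _) hR'1
  have hRR' : R < R' := lt_of_le_of_lt (le_max_left _ _) hR'1
  have hsq : R' ^ 2 < (j + 2 : ℕ) + 1 := by
    have := Real.lt_sqrt hR'0.le |>.mp hR'2
    exact this
  obtain ⟨N, v, hv, _, hf⟩ := force (j + 2) (R' ^ 2 - j) (by push_cast at hsq; linarith) j
    (le_refl _)
  refine ⟨N, v, hv, fun ε hε => ?_⟩
  obtain ⟨k, hk, hk2⟩ := hf ε hε
  refine ⟨k, hk, hRR'.trans_le ?_⟩
  have : R' ^ 2 ≤ ‖∑ i ∈ range k, ε i • v i‖ ^ 2 := by linarith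
  exact (abs_le_of_sq_le_sq' this (norm_nonneg _)).2

end Vale.Agent.Results.P262.SqrtDPlusOne
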